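import Vale.Agent.P144D.I.Defs
import Vale.Agent.P144D.B.Gap

/-!
The spectral gap of a corridor.
-/

namespace Vale.Agent.P144Z

open Finset Matrix

namespace IGks

variable {M : ℕ} [NeZero M]

theorem near {I : Finset (Tor M)} {T : ℕ} (hI : ∀ f ∈ I, tdist f 0 ≤ T) {f : Tor M} (hf : f ∈ I)
    {v : ℤ × ℤ} (hv : max v.1.natAbs v.2.natAbs ≤ 1) : tdist (f + prj M v) 0 ≤ T + 1 := by
  have h1 := tdist_triangle (f + prj M v) f 0
  have h2 := G.tdist_add_prj_le f v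
  have h3 := hI f hf
  omega

/-- Both ends of a present edge lie in the square of radius `T + 1`. -/
theorem ends {I : Finset (Tor M)} {T : ℕ} (hI : ∀ f ∈ I, tdist f 0 ≤ T) (x : Tor M) (i : Fin 2)
    (h : T + 1 < tdist x 0 ∨ T + 1 < tdist (x + uv M i) 0) : pwI I (x, i) = 0 := by
  refine (if_neg Bool.false_ne_true).trans (if_neg fun h' => ?_)
  have key : tdist x 0 ≤ T + 1 ∧ tdist (x + uv M i) 0 ≤ T + 1 := by
    rcases h' with h' | h'
    · refine ⟨(hI x h').trans (Nat.le_succ T), ?_⟩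
      have h1 := tdist_triangle (x + uv M i) x 0
      have h2 := tdist_uv x i
      have h3 : tdist x 0 ≤ T := hI x h'
      omega
    · fin_cases i
      · have h1 := near hI h' (v := (0, 1)) (by simp)
        have h2 := near hI h' (v := (1, 1)) (by simp)
        have e1 : oth (x, (0 : Fin 2)) + prj M (0, 1) = x := by simp [oth, uv, prj]
        have e2 : oth (x, (0 : Fin 2)) + prj M (1, 1) = x + uv M 0 := by
          ext <;> simp [oth, uv, prj]
        exact ⟨e1 ▸ h1, e2 ▸ h2⟩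
      · have h1 := near hI h' (v := (1, 0)) (by simp)
        have h2 := near hI h' (v := (1, 1)) (by simp)
        have e1 : oth (x, (1 : Fin 2)) + prj M (1, 0) = x := by simp [oth, uv, prj]
        have e2 : oth (x, (1 : Fin 2)) + prj M (1, 1) = x + uv M 1 := by
          ext <;> simp [oth, uv, prj]
        exact ⟨e1 ▸ h1, e2 ▸ h2⟩
  omega

/-- The part of `φ` in the square of radius `ρ`. -/
def cut (ρ : ℕ) (φ : Tor M × Fin 4 → ℝ) (s : Tor M × Fin 4) : ℝ :=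
  if tdist s.1 0 ≤ ρ then φ s else 0

theorem Dm_cut {I : Finset (Tor M)} {T : ℕ} (hI : ∀ f ∈ I, tdist f 0 ≤ T)
    (φ : Tor M × Fin 4 → ℝ) : Dm (pwI I) *ᵥ cut (T + 1) φ = cut (T + 1) (Dm (pwI I) *ᵥ φ) := by
  funext ⟨x, a⟩
  have k1 : ∀ i b, pwI I (x, i) * cut (T + 1) φ (x + uv M i, b) =
      if tdist x 0 ≤ T + 1 then pwI I (x, i) * φ (x + uv M i, b) else 0 := fun i b => by
    by_cases h : T + 1 < tdist x 0 ∨ T + 1 < tdist (x + uv M i) 0
    · simp [ends hI x i h]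
    · push Not at h
      simp [cut, h.1, h.2]
  have k2 : ∀ i b, pwI I (x - uv M i, i) * cut (T + 1) φ (x - uv M i, b) =
      if tdist x 0 ≤ T + 1 then pwI I (x - uv M i, i) * φ (x - uv M i, b) else 0 := fun i b => by
    by_cases h : T + 1 < tdist (x - uv M i) 0 ∨ T + 1 < tdist (x - uv M i + uv M i) 0
    · simp [ends hI _ i h]
    · push Not at h
      rw [sub_add_cancel] at h
      simp [cut, h.1, h.2]
  rw [E4.Dm_apply, k1, k1, k2, k2, cut, E4.Dm_apply]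
  by_cases h : tdist x 0 ≤ T + 1 <;> simp [cut, h]

theorem out_le {I : Finset (Tor M)} {T : ℕ} (hI : ∀ f ∈ I, tdist f 0 ≤ T)
    (φ : Tor M × Fin 4 → ℝ) {x : Tor M} (hx : T + 1 < tdist x 0) :
    ∑ a, φ (x, a) ^ 2 ≤ 16 * ∑ a, (Dm (pwI I) *ᵥ φ) (x, a) ^ 2 := by
  have h1 : ∀ i, pwI I (x, i) = 0 := fun i => ends hI x i (Or.inl hx)
  have h2 : ∀ i, pwI I (x - uv M i, i) = 0 := fun i =>
    ends hI _ i (Or.inr (by rwa [sub_add_cancel]))
  have h3 := B3a.site_plus (φ (x, 0)) (φ (x, 1)) (φ (x, 2)) (φ (x, 3))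
  have h4 : 1 / 16 ≤ tc ^ 2 := by
    have r2 : √2 * √2 = 2 := Real.mul_self_sqrt (by norm_num)
    have h0 : (5 / 4 : ℝ) ≤ √2 := Real.le_sqrt_of_sq_le (by norm_num)
    unfold tc
    nlinarith
  simp only [Fin.sum_univ_four, E4.Dm0, E4.Dm1, E4.Dm2, E4.Dm3, h1, h2, zero_mul, mul_zero,
    add_zero, sub_zero]
  have h5 : 0 ≤ φ (x, 0) ^ 2 + φ (x, 1) ^ 2 + φ (x, 2) ^ 2 + φ (x, 3) ^ 2 := by positivity
  nlinarith [mul_le_mul_of_nonneg_right h4 h5]

theorem split_sq (ρ : ℕ) (φ : Tor M × Fin 4 → ℝ) : φ ⬝ᵥ φ = l2sq univ (cut ρ φ) +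
    ∑ x, if ρ < tdist x 0 then ∑ a, φ (x, a) ^ 2 else 0 := by
  rw [← E4.l2sq_univ, l2sq, l2sq, ← sum_add_distrib]
  refine sum_congr rfl fun x _ => ?_
  by_cases h : tdist x 0 ≤ ρ
  · simp [cut, h, not_lt.2 h]
  · simp [cut, h, not_le.1 h]

end IGks

theorem gapU : GapU := by
  obtain ⟨C, hC, h⟩ := coercive
  refine ⟨2 * C, by linarith, fun M _ I T N hT hM hI hN φ => ?_⟩
  obtain ⟨Hs, Vs, h1, h2⟩ := hN
  have h3 := h M ⟨I, false⟩ 1 (fun _ => Or.inl rfl) 0 (T + 1) N (by omega) (by omega)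
    (fun f _ => by simp [flux]) ⟨Hs, Vs, fun x hx => h1 x (by omega), h2⟩ (IGks.cut (T + 1) φ)
    fun s hs => if_neg (not_le.2 hs)
  rw [mul_one, IGks.Dm_cut hI] at h3
  have hT' : (8 : ℝ) ≤ T := by exact_mod_cast hT
  have hN' : (1 : ℝ) ≤ N + 1 := by linarith [Nat.cast_nonneg (α := ℝ) N]
  have h4 : 1 ≤ C * (N + 1) := one_le_mul_of_one_le_of_one_le hC hN'
  have h5 : (C * (N + 1) * ((T + 1 : ℕ) : ℝ)) ^ 2 ≤ (2 * C * (N + 1) * T) ^ 2 := by
    refine pow_le_pow_left₀ (by positivity) ?_ 2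
    push_cast
    nlinarith
  have h6 : 16 ≤ (2 * C * (N + 1) * T) ^ 2 := by
    have : 4 ≤ 2 * C * (N + 1) * T := by nlinarith
    nlinarith
  rw [IGks.split_sq (T + 1) φ, IGks.split_sq (T + 1) (Dm (pwI I) *ᵥ φ), mul_add, mul_sum]
  refine add_le_add (h3.trans (mul_le_mul_of_nonneg_right h5 (E4.l2sq_nonneg _ _)))
    (sum_le_sum fun x _ => ?_)
  split_ifs with hx
  · exact (IGks.out_le hI φ hx).trans
      (mul_le_mul_of_nonneg_right h6 (sum_nonneg fun a _ => sq_nonneg _))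
  · simp

end Vale.Agent.P144Z
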