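import Vale.Agent.P144D.I.Defs
import Vale.Agent.P144Z.I2.Part

/-!
Two insertions give the Green function.
-/

namespace Vale.Agent.P144Z

open Finset Matrix A1

namespace IGks

theorem aug_sum (g : Geo) (F : Gr g.S) : aug (I2.OmL g F) =
    ∑ n : g.Cfg, aug (gauss (g.exM (gM g.M))
      (Ev.val (∏ e : Tor g.M × Fin 2, if n e then tc • g.edge e.1 e.2 else 1) * F)) := by
  have h := I2.E0_exp g tc 1
  rw [I2.E0_one, mul_one] at h
  rw [I2.OmL, I2.fn_apply, aug_map, h]
  simp only [Pi.one_apply, one_mul, map_sum, Finset.sum_mul]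

theorem two_pt (g : Geo) {s s' : Tor g.M × Fin 4} {φ : Tor g.M × Fin 4 → ℝ}
    (hφ : Dm g.A *ᵥ φ = Pi.single s' 1) :
    |aug (I2.OmL g (psi (g.ex (Pi.single s 1)) * psi (g.ex (Pi.single s' 1))))| =
      |φ s| * |Zw par0 g.A fun _ => 1| := by
  have h := I2.OmL_fld g (-φ) (psi (g.ex (Pi.single s 1)))
  have e : (-φ) ᵥ* Dm g.A = Pi.single s' 1 := by
    rw [← hφ, ← mulVec_transpose, C.Dm_anti, neg_mulVec, mulVec_neg, neg_neg]
  have h1 := congrArg (fun F => aug (Ev.val F)) (I2.Om_one g)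
  simp only [I2.val_Om, map_one, map_smul, smul_eq_mul, mul_one] at h1
  rw [e, del_psi, I2.ex_dot, I2.ex_inl, single_one_dotProduct, map_smul] at h
  rw [psi_swap, map_neg, h, neg_neg, map_smul, smul_eq_mul, abs_mul, Pi.neg_apply, abs_neg, h1]

theorem prod_wt {M : ℕ} [NeZero M] {S : Type} [Fintype S] [DecidableEq S] (A : Gauge M)
    (p : Tor M × Fin 2 → Ev S) (n : Tor M × Fin 2 → Bool) :
    (∏ e, if n e then tc • A e • p e else 1) =
      wt A tc n • ∏ e, if n e then (1 : ℝ) • p e else 1 := by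
  rw [wt, ← Finset.prod_smul]
  refine Finset.prod_congr rfl fun e _ => ?_
  split_ifs
  · rw [one_smul, mul_smul]
  · rw [one_smul]

theorem aug_smul {S : Type} [Fintype S] [DecidableEq S] (C : Matrix S S ℝ) (c : ℝ) (G : Ev S)
    (F : Gr S) : aug (gauss C (Ev.val (c • G) * F)) = aug (gauss C (Ev.val G * F)) * c := by
  simp only [map_smul, smul_mul_assoc, smul_eq_mul, mul_comm]

theorem ZJ_two {M : ℕ} [NeZero M] (A : Gauge M) (s s' : Tor M × Fin 4) :
    ZJ par0 A ![s, s'] 1 1 = aug (I2.OmL (geoA M A) (psi ((geoA M A).ex (Pi.single s 1)) *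
      psi ((geoA M A).ex (Pi.single s' 1)))) := by
  refine Eq.trans (Finset.sum_congr rfl fun n _ => ?_) (aug_sum (geoA M A) _).symm
  simp only [I2.uint_par0, Real.exp_zero, mul_one, Pi.one_apply, Finset.prod_const_one, cwI,
    List.ofFn_succ, List.ofFn_zero, List.prod_cons, List.prod_nil]
  refine Eq.trans (aug_smul _ _ _ _).symm ?_
  exact congrArg (fun G => aug (gauss _ (Ev.val G * _))) (prod_wt A _ n).symm

end IGks

theorem wickStmt : WickStmt := fun M _ A s s' _ _ hφ =>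
  (congrArg abs (IGks.ZJ_two A s s')).trans (IGks.two_pt (geoA M A) hφ)

end Vale.Agent.P144Z
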