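import Mathlib

/-!
Griffiths' inequalities for contours, in abstract form.
-/

namespace Vale.Agent.P144Z.IGks

open Finset

variable {V E : Type} [Fintype V] [DecidableEq V] [Fintype E] [DecidableEq E]

/-- The sum of two sets modulo two. -/
def xr {α : Type} (a b : α → Bool) : α → Bool := fun e => xor (a e) (b e)

theorem xr_xr {α : Type} (a b : α → Bool) : xr (xr a b) b = a := by
  funext e
  simp [xr]

/-- The weight of a set of edges. -/
noncomputable def W (w : E → ℝ) (m : E → Bool) : ℝ := ∏ e, if m e then w e else 1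

/-- A group of spin configurations with an additive map to the sets of edges. -/
structure Sys (P : (V → Bool) → Prop) (d : (V → Bool) → E → Bool) : Prop where
  zero : P fun _ => false
  add : ∀ σ τ, P σ → P τ → P (xr σ τ)
  hom : ∀ σ τ, d (xr σ τ) = xr (d σ) (d τ)

open Classical in
/-- The sum over the group. -/
noncomputable def SP (P : (V → Bool) → Prop) (F : (V → Bool) → ℝ) : ℝ :=
  ∑ σ, if P σ then F σ else 0

/-- The weight of the class of `n`. -/
noncomputable def Y (P : (V → Bool) → Prop) (d : (V → Bool) → E → Bool) (w : E → ℝ)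
    (n : E → Bool) : ℝ := SP P fun σ => W w (xr n (d σ))

variable {P : (V → Bool) → Prop} {d : (V → Bool) → E → Bool}

theorem SP_congr {F G : (V → Bool) → ℝ} (h : ∀ σ, P σ → F σ = G σ) : SP P F = SP P G :=
  sum_congr rfl fun σ _ => by
    split_ifs with hσ
    · exact h σ hσ
    · rfl

theorem SP_mono {F G : (V → Bool) → ℝ} (h : ∀ σ, P σ → F σ ≤ G σ) : SP P F ≤ SP P G :=
  sum_le_sum fun σ _ => by
    split_ifs with hσ
    · exact h σ hσ
    · exact le_rfl

theorem SP_zero : SP P (fun _ => 0) = 0 := by simp [SP]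

theorem SP_nonneg {F : (V → Bool) → ℝ} (h : ∀ σ, P σ → 0 ≤ F σ) : 0 ≤ SP P F :=
  SP_zero.symm.trans_le (SP_mono h)

theorem SP_mul (c : ℝ) (F : (V → Bool) → ℝ) : SP P (fun σ => c * F σ) = c * SP P F := by
  simp only [SP, mul_sum, mul_ite, mul_zero]

theorem SP_add (F G : (V → Bool) → ℝ) : SP P (fun σ => F σ + G σ) = SP P F + SP P G := by
  simp only [SP, ← sum_add_distrib]
  refine sum_congr rfl fun σ _ => ?_
  split_ifs <;> simp

theorem SP_sum {ι : Type} (s : Finset ι) (F : ι → (V → Bool) → ℝ) :
    SP P (fun σ => ∑ i ∈ s, F i σ) = ∑ i ∈ s, SP P (F i) := by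
  simp only [SP]
  rw [sum_comm]
  refine sum_congr rfl fun σ _ => ?_
  split_ifs <;> simp

theorem SP_comm (F : (V → Bool) → (V → Bool) → ℝ) :
    SP P (fun σ => SP P (F σ)) = SP P fun τ => SP P fun σ => F σ τ := by
  classical
  have h : ∀ G : (V → Bool) → (V → Bool) → ℝ, SP P (fun σ => SP P (G σ)) =
      ∑ σ, ∑ τ, if P σ ∧ P τ then G σ τ else 0 := fun G => by
    simp only [SP]
    refine sum_congr rfl fun σ _ => ?_
    by_cases hσ : P σ <;> simp [hσ]
  rw [h, h, sum_comm]
  simp only [and_comm]

omit [Fintype E] [DecidableEq E] in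
theorem Sys.shift (h : Sys P d) {τ : V → Bool} (hτ : P τ) (F : (V → Bool) → ℝ) :
    SP P (fun σ => F (xr σ τ)) = SP P F := by
  refine Fintype.sum_bijective (fun σ => xr σ τ)
    (Function.Involutive.bijective fun σ => xr_xr σ τ) _ _ fun σ => ?_
  have : P (xr σ τ) ↔ P σ := ⟨fun h' => xr_xr σ τ ▸ h.add _ _ h' hτ, fun h' => h.add _ _ h' hτ⟩
  by_cases hσ : P σ
  · rw [if_pos hσ, if_pos (this.2 hσ)]
  · rw [if_neg hσ, if_neg (mt this.1 hσ)]

omit [Fintype V] [DecidableEq V] [Fintype E] [DecidableEq E] in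
theorem Sys.d_zero (h : Sys P d) : d (fun _ => false) = fun _ => false := by
  have := h.hom (fun _ => false) fun _ => false
  funext e
  have h2 : d (fun _ => false) e = xor (d (fun _ => false) e) (d (fun _ => false) e) :=
    congrFun this e
  rw [h2, Bool.xor_self]

omit [DecidableEq E] in
theorem W_nonneg {w : E → ℝ} (hw : ∀ e, 0 ≤ w e) (m : E → Bool) : 0 ≤ W w m :=
  prod_nonneg fun e _ => by
    split_ifs
    · exact hw e
    · exact zero_le_one

omit [DecidableEq E] in
theorem Y_nonneg {w : E → ℝ} (hw : ∀ e, 0 ≤ w e) (n : E → Bool) : 0 ≤ Y P d w n :=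
  SP_nonneg fun _ _ => W_nonneg hw _

omit [DecidableEq E] in
theorem Sys.Y_pos (h : Sys P d) {w : E → ℝ} (hw : ∀ e, 0 ≤ w e) :
    0 < Y P d w fun _ => false := by
  classical
  refine lt_of_lt_of_le ?_ (single_le_sum (f := fun σ => if P σ then
    W w (xr (fun _ => false) (d σ)) else 0) (fun σ _ => ?_) (mem_univ fun _ => false))
  · simp [h.zero, h.d_zero, W, xr]
  · split_ifs
    · exact W_nonneg hw _
    · exact le_rfl

/-- The indicator that no edge of `A` is in `m`. -/
noncomputable def ind (A : Finset E) (m : E → Bool) : ℝ := ∏ e ∈ A, if m e then 0 else 1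

theorem W_eq (w : E → ℝ) (m : E → Bool) : W w m = ∑ A ∈ (univ : Finset E).powerset,
    ((∏ e ∈ A, (1 - w e)) * ∏ e ∈ univ \ A, w e) * ind A m := by
  have : W w m = ∏ e, ((1 - w e) * (if m e then 0 else 1) + w e) :=
    prod_congr rfl fun e _ => by split_ifs <;> ring
  rw [this, prod_add]
  refine sum_congr rfl fun A _ => ?_
  rw [prod_mul_distrib, ind]
  ring

theorem Sys.ind_le (h : Sys P d) (A : Finset E) (n : E → Bool) :
    SP P (fun σ => ind A (xr n (d σ))) ≤ SP P fun σ => ind A (xr (fun _ => false) (d σ)) := by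
  by_cases hex : ∃ τ, P τ ∧ ∀ e ∈ A, xr n (d τ) e = false
  · obtain ⟨τ, hτ, hA⟩ := hex
    rw [← h.shift hτ]
    refine (SP_congr fun σ _ => prod_congr rfl fun e he => ?_).le
    have h1 : xor (n e) (d τ e) = false := hA e he
    have h2 : xr n (d (xr σ τ)) e = xr (fun _ => false) (d σ) e := by
      rw [h.hom]
      change xor (n e) (xor (d σ e) (d τ e)) = xor false (d σ e)
      revert h1
      cases n e <;> cases d τ e <;> cases d σ e <;> simp
    rw [h2]
  · push Not at hex
    refine (SP_mono (G := fun _ => 0) fun σ hσ => ?_).trans (SP_zero.trans_le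
      (SP_nonneg fun σ _ => prod_nonneg fun e _ => by split_ifs <;> norm_num))
    obtain ⟨e, he, hne⟩ := hex σ hσ
    exact (prod_eq_zero he (by simp [hne])).le

/-- The first inequality. -/
theorem Sys.g0 (h : Sys P d) {w : E → ℝ} (hw : ∀ e, 0 ≤ w e ∧ w e ≤ 1) (n : E → Bool) :
    Y P d w n ≤ Y P d w fun _ => false := by
  simp only [Y, W_eq w, SP_sum, SP_mul]
  refine sum_le_sum fun A _ => mul_le_mul_of_nonneg_left (h.ind_le A n) (mul_nonneg
    (prod_nonneg fun e _ => sub_nonneg.2 (hw e).2) (prod_nonneg fun e _ => (hw e).1))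

omit [DecidableEq E] in
theorem W_mul (w : E → ℝ) (m c : E → Bool) :
    W w m * W w (xr m c) = W w c * W (fun e => if c e then 1 else w e ^ 2) m := by
  simp only [W, ← prod_mul_distrib]
  refine prod_congr rfl fun e _ => ?_
  rcases hm : m e <;> rcases hc : c e <;> simp [xr, hm, hc, sq]

omit [DecidableEq E] in
theorem Sys.dup (h : Sys P d) (w : E → ℝ) (n n' : E → Bool) :
    Y P d w n * Y P d w n' = SP P fun τ => W w (xr (xr n n') (d τ)) *
      Y P d (fun e => if xr (xr n n') (d τ) e then 1 else w e ^ 2) n := by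
  have h1 : Y P d w n * Y P d w n' = SP P fun σ => SP P fun τ =>
      W w (xr n (d σ)) * W w (xr (xr n (d σ)) (xr (xr n n') (d τ))) := by
    rw [mul_comm, Y, Y, ← SP_mul]
    refine SP_congr fun σ hσ => ?_
    rw [mul_comm, SP_mul, ← h.shift hσ]
    congr 1
    refine SP_congr fun τ _ => ?_
    rw [h.hom]
    congr 1
    funext e
    simp only [xr]
    cases n e <;> cases n' e <;> cases d τ e <;> cases d σ e <;> rfl
  rw [h1, SP_comm]
  refine SP_congr fun τ _ => ?_
  rw [Y, ← SP_mul]
  exact SP_congr fun σ _ => W_mul _ _ _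

/-- The second inequality. -/
theorem Sys.g1 (h : Sys P d) {w : E → ℝ} (hw : ∀ e, 0 ≤ w e ∧ w e ≤ 1) (n n' : E → Bool) :
    Y P d w n * Y P d w n' ≤ Y P d w (xr n n') * Y P d w fun _ => false := by
  have e : xr (fun _ => false) (xr n n') = xr n n' := by
    funext e
    simp [xr]
  rw [h.dup, mul_comm (Y P d w (xr n n')), h.dup, e]
  refine SP_mono fun τ _ => mul_le_mul_of_nonneg_left (h.g0 (fun e => ?_) n)
    (W_nonneg (fun e => (hw e).1) _)
  split_ifs
  · norm_num
  · exact ⟨sq_nonneg _, pow_le_one₀ (hw e).1 (hw e).2⟩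

theorem W_update (w : E → ℝ) (e : E) (t : ℝ) (m : E → Bool) :
    W (Function.update w e t) m = W (Function.update w e 0) m +
      t * W (Function.update w e 0) (xr m fun e' => decide (e' = e)) := by
  have key : ∀ (s : ℝ) (m' : E → Bool), (∀ e', e' ≠ e → m' e' = m e') →
      W (Function.update w e s) m' =
        (if m' e then s else 1) * ∏ e' ∈ univ.erase e, if m e' then w e' else 1 := by
    intro s m' hm
    rw [W, ← mul_prod_erase _ _ (mem_univ e), Function.update_self]
    congr 1
    refine prod_congr rfl fun e' he' => ?_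
    rw [hm e' (ne_of_mem_erase he'), Function.update_of_ne (ne_of_mem_erase he')]
  rw [key t m fun _ _ => rfl, key 0 m fun _ _ => rfl,
    key 0 (xr m fun e' => decide (e' = e)) fun e' he' => by simp [xr, he']]
  rcases hm : m e <;> simp [xr, hm]

theorem Y_update (w : E → ℝ) (e : E) (t : ℝ) (n : E → Bool) :
    Y P d (Function.update w e t) n = Y P d (Function.update w e 0) n +
      t * Y P d (Function.update w e 0) (xr n fun e' => decide (e' = e)) := by
  rw [Y, Y, Y, ← SP_mul, ← SP_add]
  refine SP_congr fun σ _ => ?_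
  rw [W_update]
  congr 3
  funext e'
  simp only [xr]
  cases n e' <;> cases d σ e' <;> cases decide (e' = e) <;> rfl

theorem Sys.step (h : Sys P d) {w : E → ℝ} (hw : ∀ e, 0 ≤ w e ∧ w e ≤ 1) (e : E) {s t : ℝ}
    (hst : s ≤ t) (n : E → Bool) :
    Y P d (Function.update w e s) n * Y P d (Function.update w e t) (fun _ => false) ≤
      Y P d (Function.update w e t) n * Y P d (Function.update w e s) fun _ => false := by
  have h0 : ∀ e', 0 ≤ Function.update w e 0 e' ∧ Function.update w e 0 e' ≤ 1 := fun e' => by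
    by_cases he : e' = e
    · simp [he]
    · simpa [he] using hw e'
  have e1 : xr (fun _ => false) (fun e' => decide (e' = e)) = fun e' => decide (e' = e) := by
    funext e'
    simp [xr]
  have := h.g1 h0 n fun e' => decide (e' = e)
  rw [Y_update w e s, Y_update w e t, Y_update w e s, Y_update w e t, e1]
  nlinarith [mul_le_mul_of_nonneg_left this (sub_nonneg.2 hst)]

/-- The third inequality. -/
theorem Sys.g2 (h : Sys P d) {w w' : E → ℝ} (hw : ∀ e, 0 ≤ w e ∧ w e ≤ 1)
    (hw' : ∀ e, 0 ≤ w' e ∧ w' e ≤ w e) (n : E → Bool) :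
    Y P d w' n * Y P d w (fun _ => false) ≤ Y P d w n * Y P d w' fun _ => false := by
  have hs : ∀ (s : Finset E) e, 0 ≤ s.piecewise w w' e ∧ s.piecewise w w' e ≤ 1 := fun s e => by
    by_cases he : e ∈ s
    · simpa [he] using hw e
    · simpa [he] using ⟨(hw' e).1, (hw' e).2.trans (hw e).2⟩
  have key : ∀ s : Finset E, Y P d w' n / Y P d w' (fun _ => false) ≤
      Y P d (s.piecewise w w') n / Y P d (s.piecewise w w') fun _ => false := by
    intro s
    induction s using Finset.induction_on with
    | empty => simp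
    | insert e s he ih =>
      refine ih.trans ?_
      rw [div_le_div_iff₀ (h.Y_pos fun e => (hs s e).1) (h.Y_pos fun e' => (hs _ e').1),
        piecewise_insert]
      have := h.step (hs s) e (hw' e).2 n
      rwa [show Function.update (s.piecewise w w') e (w' e) = s.piecewise w w' from
        Function.update_eq_self_iff.2 (piecewise_eq_of_notMem _ _ _ he).symm] at this
  have := key univ
  rwa [piecewise_univ, div_le_div_iff₀ (h.Y_pos fun e => (hw' e).1)
    (h.Y_pos fun e => (hw e).1)] at this

end Vale.Agent.P144Z.IGks
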