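import Vale.Agent.P144D.I.Defs
import Vale.Agent.P144D.I.Gks.Abs

/-!
Griffiths' inequalities for contours.
-/

namespace Vale.Agent.P144Z

open Finset Matrix

namespace IGks

variable {M : ℕ} [NeZero M]

omit [NeZero M] in
theorem sys_dom (I : Finset (Tor M)) :
    Sys (fun σ : Tor M → Bool => ∀ u, u ∉ I → σ u = false) dom where
  zero := fun _ _ => rfl
  add := fun σ τ hσ hτ u hu => by simp [xr, hσ u hu, hτ u hu]
  hom := fun σ τ => by
    funext e
    simp only [dom, xr]
    generalize σ e.1 = a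
    generalize τ e.1 = b
    generalize σ _ = c
    generalize τ _ = d
    cases a <;> cases b <;> cases c <;> cases d <;> rfl

theorem Yn_eq (I : Finset (Tor M)) (w : Gauge M) (n : Tor M × Fin 2 → Bool) :
    Yn I w n = Y (fun σ : Tor M → Bool => ∀ u, u ∉ I → σ u = false) dom w n := by
  refine sum_congr rfl fun σ _ => ?_
  by_cases h : ∀ u, u ∉ I → σ u = false
  · rw [if_pos h, if_pos h]
    exact prod_congr rfl fun e _ => if_congr Iff.rfl (one_mul _) rfl
  · rw [if_neg h, if_neg h]

end IGks

theorem gksStmt : GksStmt := by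
  intro M _ I w hw
  simp only [IGks.Yn_eq]
  exact ⟨(IGks.sys_dom I).g0 hw, (IGks.sys_dom I).g1 hw, fun _ hw' => (IGks.sys_dom I).g2 hw hw'⟩

end Vale.Agent.P144Z
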